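import Mathlib

/-!
# P338 / OW: from the implicit bound to n^2 / log n
-/

namespace Vale.Agent.Lib.P338.OW

lemma clog_le_real (n : ℕ) (hn : 2 ≤ n) :
    (Nat.clog 2 n : ℝ) ≤ Real.log n / Real.log 2 + 1 := by
  have hl2 : 0 < Real.log 2 := Real.log_pos (by norm_num)
  have h1 : 2 ^ (Nat.clog 2 n).pred < n := Nat.pow_pred_clog_lt_self (by norm_num) (by omega)
  have hpos : 0 < Nat.clog 2 n := Nat.clog_pos (by norm_num) hn
  have h2 : ((2 : ℝ) ^ (Nat.clog 2 n).pred) < (n : ℝ) := by exact_mod_cast h1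
  have h3 := Real.log_lt_log (by positivity) h2
  rw [Real.log_pow] at h3
  have h4 : (((Nat.clog 2 n).pred : ℕ) : ℝ) = (Nat.clog 2 n : ℝ) - 1 := by
    rw [Nat.pred_eq_sub_one, Nat.cast_sub hpos]
    simp
  rw [h4] at h3
  rw [← sub_le_iff_le_add, le_div_iff₀ hl2]
  exact h3.le

lemma arith_sq_log (q : ℕ) (hq : 1 ≤ q) (T : ℕ → ℕ)
    (h : ∀ Λ n : ℕ, 1 ≤ n → q * (T n + 1) + 1 ≤ 2 ^ Λ → (n - 1) * (n + 1) ≤ 14 * Λ * T n) :
    ∃ c : ℝ, 0 < c ∧ ∀ n : ℕ, 2 ≤ n → c * ((n : ℝ) ^ 2 / Real.log n) ≤ (T n : ℝ) := by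
  have hl2 : 0 < Real.log 2 := Real.log_pos (by norm_num)
  set Lq : ℕ := Nat.clog 2 q with hLq
  have hA : (0 : ℝ) < 56 * (5 + (Lq : ℝ)) := by positivity
  refine ⟨Real.log 2 / (56 * (5 + (Lq : ℝ))), by positivity, ?_⟩
  intro n hn
  have hn2 : (2 : ℝ) ≤ (n : ℝ) := by exact_mod_cast hn
  have hn0 : (0 : ℝ) < (n : ℝ) := by linarith
  have hlog : 0 < Real.log n := Real.log_pos (by linarith)
  have hlog2 : Real.log 2 ≤ Real.log n := Real.log_le_log (by norm_num) hn2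
  by_cases hT : n ^ 2 ≤ T n
  · have hT' : ((n : ℝ) ^ 2) ≤ (T n : ℝ) := by exact_mod_cast hT
    have h1 : Real.log 2 / (56 * (5 + (Lq : ℝ))) ≤ Real.log n := by
      rw [div_le_iff₀ hA]
      have : (0 : ℝ) ≤ (Lq : ℝ) := by positivity
      nlinarith
    calc Real.log 2 / (56 * (5 + (Lq : ℝ))) * ((n : ℝ) ^ 2 / Real.log n)
        ≤ Real.log n * ((n : ℝ) ^ 2 / Real.log n) := by
          apply mul_le_mul_of_nonneg_right h1
          positivity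
      _ = (n : ℝ) ^ 2 := by field_simp
      _ ≤ _ := hT'
  · rw [not_le] at hT
    set Ln : ℕ := Nat.clog 2 n with hLn
    have hq2 : q ≤ 2 ^ Lq := Nat.le_pow_clog (by norm_num) q
    have hn3 : n ≤ 2 ^ Ln := Nat.le_pow_clog (by norm_num) n
    have hb : q * (T n + 1) + 1 ≤ 2 ^ (1 + Lq + 2 * Ln) := by
      have e1 : q * (T n + 1) ≤ q * n ^ 2 := Nat.mul_le_mul_left q hT
      have e2 : 1 ≤ q * n ^ 2 := by
        have : 1 ≤ n ^ 2 := Nat.one_le_pow _ _ (by omega)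
        nlinarith
      have e3 : q * n ^ 2 ≤ 2 ^ Lq * (2 ^ Ln) ^ 2 :=
        Nat.mul_le_mul hq2 (Nat.pow_le_pow_left hn3 2)
      have e4 : 2 ^ (1 + Lq + 2 * Ln) = 2 * (2 ^ Lq * (2 ^ Ln) ^ 2) := by
        rw [pow_add, pow_add, pow_one, ← pow_mul, mul_comm Ln 2, mul_assoc]
      rw [e4]
      omega
    have h1 := h (1 + Lq + 2 * Ln) n (by omega) hb
    have h2 : ((n : ℝ) - 1) * ((n : ℝ) + 1) ≤ 14 * (1 + (Lq : ℝ) + 2 * (Ln : ℝ)) * (T n : ℝ) := by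
      have h3 : (((n - 1) * (n + 1) : ℕ) : ℝ) ≤ ((14 * (1 + Lq + 2 * Ln) * T n : ℕ) : ℝ) := by
        exact_mod_cast h1
      have h4 : ((n - 1 : ℕ) : ℝ) = (n : ℝ) - 1 := by
        rw [Nat.cast_sub (by omega)]
        simp
      push_cast at h3
      rw [h4] at h3
      exact h3
    have h5 := clog_le_real n hn
    rw [← hLn] at h5
    set x : ℝ := Real.log n / Real.log 2 with hx
    have hx1 : 1 ≤ x := by
      rw [hx, le_div_iff₀ hl2]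
      linarith
    have hLq0 : (0 : ℝ) ≤ (Lq : ℝ) := by positivity
    have h6 : 1 + (Lq : ℝ) + 2 * (Ln : ℝ) ≤ (5 + (Lq : ℝ)) * x := by nlinarith
    have hT0 : (0 : ℝ) ≤ (T n : ℝ) := by positivity
    have h7 : 3 / 4 * (n : ℝ) ^ 2 ≤ 14 * ((5 + (Lq : ℝ)) * x) * (T n : ℝ) := by
      have h8 : 14 * (1 + (Lq : ℝ) + 2 * (Ln : ℝ)) * (T n : ℝ) ≤
          14 * ((5 + (Lq : ℝ)) * x) * (T n : ℝ) := by
        apply mul_le_mul_of_nonneg_right _ hT0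
        linarith
      nlinarith
    have h9 : Real.log 2 / (56 * (5 + (Lq : ℝ))) * ((n : ℝ) ^ 2 / Real.log n) =
        (n : ℝ) ^ 2 / (56 * (5 + (Lq : ℝ)) * x) := by
      rw [hx]
      field_simp
    rw [h9, div_le_iff₀ (by positivity)]
    nlinarith [sq_nonneg (n : ℝ)]

end Vale.Agent.Lib.P338.OW
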