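import Mathlib

/-!
# P338 / OW: n log n is at most 4 n^2 / log n
-/

namespace Vale.Agent.Lib.P338.OW

lemma nlogn_le (n : ℕ) (hn : 2 ≤ n) :
    (n : ℝ) * Real.log n ≤ 4 * ((n : ℝ) ^ 2 / Real.log n) := by
  have hn2 : (2 : ℝ) ≤ (n : ℝ) := by exact_mod_cast hn
  have hn0 : (0 : ℝ) < (n : ℝ) := by linarith
  have hlog : 0 < Real.log n := Real.log_pos (by linarith)
  have hs : 0 < Real.sqrt n := Real.sqrt_pos.2 hn0
  have h1 : Real.log (Real.sqrt n) ≤ Real.sqrt n - 1 := Real.log_le_sub_one_of_pos hs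
  rw [Real.log_sqrt hn0.le] at h1
  have h2 : Real.log n ≤ 2 * Real.sqrt n := by linarith
  have h3 : Real.log n ^ 2 ≤ 4 * n := by
    have h4 : Real.sqrt n ^ 2 = n := Real.sq_sqrt hn0.le
    nlinarith
  rw [← mul_div_assoc, le_div_iff₀ hlog]
  nlinarith

end Vale.Agent.Lib.P338.OW
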