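import Mathlib
import Vale.Agent.Lib.P338.Model

/-!
# P338 / OW: the restricted model: one work tape and a one-way write-only output tape
-/

namespace Vale.Agent.Lib.P338.OW

open Vale.Agent.Lib.P338

/-- Tape `0` is the input tape, tape `1` the output tape, and the output tape is one-way and
write-only: each step either writes a blank and stays (does nothing) or writes and moves right. -/
def OneWayOut (M : Machine 2) : Prop :=
  M.inp = 0 ∧ M.out = 1 ∧
  ∀ (q : M.Q) (a : Fin 2 → M.Γ) (r : M.Q × (Fin 2 → M.Γ × Move)), M.δ q a = some r →
    (r.2 1 = (M.sym Sym.blank, Move.stay) ∨ (r.2 1).2 = Move.right)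

end Vale.Agent.Lib.P338.OW
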