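import Mathlib
import Vale.Agent.Lib.P338.OW.OneWay

/-!
# P338 / OW: machines with one work tape and a one-way write-only output tape

Tape `0` initially holds the input and is an unrestricted read-write tape; tape `1` is the output
tape: in each step the machine either leaves it alone or writes one symbol and moves right.
We simulate one side `S` of a boundary of tape `0` on its own, given the list of the
(state, output head position) pairs in which the head of tape `0` enters that side.
-/

namespace Vale.Agent.Lib.P338.OW

open Vale.Agent.Lib.P338

variable (M : Machine 2)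

/-- All cells of the output tape from the head on are blank. -/
def Fresh (c : Cfg M) : Prop := ∀ p, c.head 1 ≤ p → c.tape 1 p = M.sym Sym.blank

/-- The symbols read when tape `0` shows `s` and the output tape shows a blank. -/
def rd (s : M.Γ) : Fin 2 → M.Γ := fun i => if i = 0 then s else M.sym Sym.blank

/-- State of the simulation of one side: (state, head of tape 0, head of tape 1) if the head of
tape `0` is on that side; contents of tape `0` on that side; what that side wrote on tape `1`. -/
abbrev SV : Type := Option (M.Q × ℕ × ℕ) × (ℕ → M.Γ) × (ℕ → M.Γ)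

/-- Contents of a tape restricted to the cells in `S` (blank elsewhere). -/
def mask (S : ℕ → Prop) [DecidablePred S] (τ : ℕ → M.Γ) : ℕ → M.Γ :=
  fun j => if S j then τ j else M.sym Sym.blank

/-- What the side `S` sees of a configuration (`ω` = what it has written on the output tape). -/
def sview (S : ℕ → Prop) [DecidablePred S] (c : Cfg M) (ω : ℕ → M.Γ) : SV M :=
  (if S (c.head 0) then some (c.q, c.head 0, c.head 1) else none, mask M S (c.tape 0), ω)

/-- One step seen from the side `S`, the head of tape `0` being on the cell `h` of `S`. -/
def sstep (S : ℕ → Prop) [DecidablePred S] (q : M.Q) (h p : ℕ) (τ ω : ℕ → M.Γ) : Option (SV M) :=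
  (M.δ q (rd M (τ h))).map fun r =>
    (if S ((r.2 0).2.apply h) then some (r.1, (r.2 0).2.apply h, (r.2 1).2.apply p) else none,
     Function.update τ h (r.2 0).1, Function.update ω p (r.2 1).1)

/-- The side `S` simulated on its own (with fuel), given the list of the (state, output head)
pairs in which the head of tape `0` enters `S`; it always enters on the cell `ent`. -/
def srun (S : ℕ → Prop) [DecidablePred S] (ent : ℕ) : ℕ → List (M.Q × ℕ) → SV M → SV M
  | 0, _, v => v
  | f + 1, l, (some (q, h, p), τ, ω) =>
    match sstep M S q h p τ ω with
    | none => (some (q, h, p), τ, ω)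
    | some v' => srun S ent f l v'
  | _ + 1, [], (none, τ, ω) => (none, τ, ω)
  | f + 1, e :: l, (none, τ, ω) => srun S ent f l (some (e.1, ent, e.2), τ, ω)

/-- The (state, output head) pairs in which the head of tape `0` enters `S` during the first `t`
steps from `c`. -/
def senters (S : ℕ → Prop) [DecidablePred S] : ℕ → Cfg M → List (M.Q × ℕ)
  | 0, _ => []
  | t + 1, c =>
    match step M c with
    | none => []
    | some c' =>
      (if ¬ S (c.head 0) ∧ S (c'.head 0) then [(c'.q, c'.head 1)] else []) ++ senters S t c'

/-- What is written on the output tape, during the first `t` steps from `c`, by the steps made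
while the head of tape `0` is in `S` (starting from `ω`). -/
def swrote (S : ℕ → Prop) [DecidablePred S] : ℕ → Cfg M → (ℕ → M.Γ) → (ℕ → M.Γ)
  | 0, _, ω => ω
  | t + 1, c, ω =>
    match step M c with
    | none => ω
    | some c' =>
      swrote S t c' (if S (c.head 0) then Function.update ω (c.head 1) (c'.tape 1 (c.head 1)) else ω)

/-- `tp` is the superposition of `ωR` and `ωL`, which are never both non-blank. -/
def Merged (tp ωR ωL : ℕ → M.Γ) : Prop :=
  ∀ p, (ωR p = M.sym Sym.blank ∨ ωL p = M.sym Sym.blank) ∧
    ((ωR p = M.sym Sym.blank → tp p = ωL p) ∧ (ωR p ≠ M.sym Sym.blank → tp p = ωR p))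

open Classical in
/-- The number whose binary digits (length `2n`, leftmost most significant) are the ones of `ω`. -/
noncomputable def num (n : ℕ) (ω : ℕ → M.Γ) : ℕ :=
  ∑ p ∈ Finset.range (2 * n), if ω p = M.sym Sym.one then 2 ^ (2 * n - 1 - p) else 0

/-- The all-blank output. -/
def blankOut : ℕ → M.Γ := fun _ => M.sym Sym.blank

/-- The string `a 0^(n-m)`. -/
def xOf (n m : ℕ) (a : Fin m → Bool) : Fin n → Bool :=
  fun i => if h : (i : ℕ) < m then a ⟨i, h⟩ else false

/-- The string `0^(n-m) b`. -/
def yOf (n m : ℕ) (b : Fin m → Bool) : Fin n → Bool :=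
  fun i => if h : n - m ≤ (i : ℕ) ∧ (i : ℕ) - (n - m) < m then b ⟨(i : ℕ) - (n - m), h.2⟩ else false

/-- The initial configuration on `a 0^(n-m) # 0^(n-m) b`. -/
def ini (n m : ℕ) (a b : Fin m → Bool) : Cfg M := init M (xOf n m a) (yOf n m b)

/-- The running time on that input. -/
noncomputable def tim (n m : ℕ) (a b : Fin m → Bool) : ℕ := haltTime M (xOf n m a) (yOf n m b)

/-- Left-to-right crossing record at the boundary `β` (between the cells `β - 1` and `β`). -/
noncomputable def ER (n m β : ℕ) (a b : Fin m → Bool) : List (M.Q × ℕ) :=
  senters M (fun j => β ≤ j) (tim M n m a b) (ini M n m a b)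

/-- Right-to-left crossing record at the boundary `β`. -/
noncomputable def EL (n m β : ℕ) (a b : Fin m → Bool) : List (M.Q × ℕ) :=
  senters M (fun j => ¬ β ≤ j) (tim M n m a b) (ini M n m a b)

end Vale.Agent.Lib.P338.OW
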