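import Mathlib
import Vale.Agent.Lib.P338.Model

/-!
# P338 / OW: multiplying correctly on the inputs of one length
-/

namespace Vale.Agent.Lib.P338.OW

open Vale.Agent.Lib.P338

/-- `M` multiplies correctly all pairs of strings of length `n`. -/
def MultAt {k : ℕ} (M : Machine k) (n : ℕ) : Prop :=
  ∀ x y : Fin n → Bool, ∃ (t : ℕ) (c : Cfg M), HaltsWith M x y t c ∧
    ∀ i : ℕ, i < 2 * n → c.tape M.out i = M.sym (bitSym (binDigit (2 * n) (val x * val y) i))

end Vale.Agent.Lib.P338.OW
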