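import Mathlib
import Vale.Agent.Lib.P338.OW.Defs
import Vale.Agent.Lib.P338.OW.MultAt

/-!
# P338 / OW: generalities on runs and binary strings
-/

namespace Vale.Agent.Lib.P338.OW

open Vale.Agent.Lib.P338

section General

variable {k : ℕ} (M : Machine k)

lemma run_add (s t : ℕ) (c : Cfg M) : run M (s + t) c = (run M s c).bind (run M t) := by
  induction s generalizing c with
  | zero => simp [run]
  | succ s ih =>
    rw [Nat.succ_add]
    simp only [run]
    cases h : step M c with
    | none => simp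
    | some c' => simp [ih]

lemma halt_unique {c c₁ c₂ : Cfg M} {t₁ t₂ : ℕ} (h₁ : run M t₁ c = some c₁)
    (h₁' : step M c₁ = none) (h₂ : run M t₂ c = some c₂) : t₂ ≤ t₁ := by
  by_contra hlt
  rw [not_le] at hlt
  obtain ⟨d, rfl⟩ := Nat.exists_eq_add_of_lt hlt
  rw [add_assoc, run_add, h₁] at h₂
  simp only [Option.bind_some] at h₂
  have h3 : run M (d + 1) c₁ = none := by
    show (step M c₁).bind (run M d) = none
    rw [h₁']
    rfl
  rw [h3] at h₂
  cases h₂

lemma haltTime_eq {n : ℕ} {x y : Fin n → Bool} {t : ℕ} {c : Cfg M} (h : HaltsWith M x y t c) :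
    haltTime M x y = t := by
  unfold haltTime
  apply le_antisymm
  · exact Nat.sInf_le (show t ∈ {t : ℕ | ∃ c : Cfg M, HaltsWith M x y t c} from ⟨c, h⟩)
  · apply le_csInf (show Set.Nonempty {t : ℕ | ∃ c : Cfg M, HaltsWith M x y t c} from ⟨t, c, h⟩)
    rintro t' ⟨c', h'⟩
    exact halt_unique M h'.1 h'.2 h.1

lemma haltTime_le_worstTime {n : ℕ} (x y : Fin n → Bool) : haltTime M x y ≤ worstTime M n := by
  unfold worstTime
  exact Finset.le_sup (f := fun p : (Fin n → Bool) × (Fin n → Bool) => haltTime M p.1 p.2)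
    (Finset.mem_univ (x, y))

end General

lemma ofBits_eq_sum {n : ℕ} (f : Fin n → Bool) :
    Nat.ofBits f = ∑ i : Fin n, (f i).toNat * 2 ^ (i : ℕ) := by
  induction n with
  | zero => simp
  | succ n ih =>
    rw [Nat.ofBits_succ, ih, Fin.sum_univ_succ, Finset.mul_sum]
    simp only [Function.comp, Fin.val_zero, pow_zero, mul_one, Fin.val_succ]
    rw [add_comm]
    congr 1
    apply Finset.sum_congr rfl
    intro i _
    ring

lemma val_eq_ofBits {n : ℕ} (x : Fin n → Bool) : val x = Nat.ofBits (fun i => x i.rev) := by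
  rw [ofBits_eq_sum, val]
  rw [← Equiv.sum_comp Fin.revPerm]
  apply Finset.sum_congr rfl
  intro i _
  simp only [Fin.revPerm_apply, Fin.val_rev]
  congr 2
  omega

lemma testBit_val {n : ℕ} (x : Fin n → Bool) (j : Fin n) :
    (val x).testBit (n - 1 - (j : ℕ)) = x j := by
  rw [val_eq_ofBits, Nat.testBit_ofBits_lt _ _ (by omega)]
  congr 1
  apply Fin.ext
  simp only [Fin.val_rev]
  omega

/-! ### The right-hand view of a one-tape computation -/

lemma bitSym_inj : Function.Injective bitSym := by
  intro a b h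
  cases a <;> cases b <;> simp_all [bitSym]

end Vale.Agent.Lib.P338.OW
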