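import Mathlib

/-!
# P338 / OW: a rectangle-free subset of an N x N grid has at most sqrt 2 * N^(3/2) points
-/

namespace Vale.Agent.Lib.P338.OW

lemma c4_free_card {α : Type*} [Fintype α] [DecidableEq α] (F : Finset (α × α))
    (hF : ∀ a a' b b', (a, b) ∈ F → (a, b') ∈ F → (a', b) ∈ F → (a', b') ∈ F → a = a' ∨ b = b') :
    F.card ^ 2 ≤ 2 * (Fintype.card α) ^ 3 := by
  classical
  obtain ⟨N, hN⟩ : ∃ N : ℕ, N = Fintype.card α := ⟨_, rfl⟩
  rw [← hN]
  let d : α → ℕ := fun a => (F.filter (fun p => p.1 = a)).card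
  have hsum : F.card = ∑ a, d a :=
    Finset.card_eq_sum_card_fiberwise (f := Prod.fst) (t := Finset.univ)
      (fun _ _ => Finset.mem_coe.2 (Finset.mem_univ _))
  let T : Finset ((α × α) × (α × α)) := (F ×ˢ F).filter (fun pq => pq.1.1 = pq.2.1)
  have hT : T.card = ∑ a, d a ^ 2 := by
    rw [Finset.card_eq_sum_card_fiberwise (f := fun pq : (α × α) × (α × α) => pq.1.1)
      (t := Finset.univ) (fun _ _ => Finset.mem_coe.2 (Finset.mem_univ _))]
    refine Finset.sum_congr rfl fun a _ => ?_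
    have : T.filter (fun pq => pq.1.1 = a)
        = (F.filter (fun p => p.1 = a)) ×ˢ (F.filter (fun p => p.1 = a)) := by
      ext ⟨p, q⟩
      simp only [T, Finset.mem_filter, Finset.mem_product]
      constructor
      · rintro ⟨⟨⟨hp, hq⟩, h1⟩, h2⟩
        exact ⟨⟨hp, h2⟩, ⟨hq, h1 ▸ h2⟩⟩
      · rintro ⟨⟨hp, h1⟩, ⟨hq, h2⟩⟩
        exact ⟨⟨⟨hp, hq⟩, h1.trans h2.symm⟩, h1⟩
    rw [this, Finset.card_product, sq]
  have hFN : F.card ≤ N ^ 2 := by
    calc F.card ≤ Fintype.card (α × α) := Finset.card_le_univ F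
      _ = N ^ 2 := by rw [Fintype.card_prod, sq, hN]
  have hT1 : (T.filter (fun pq => pq.1.2 = pq.2.2)).card ≤ F.card := by
    apply Finset.card_le_card_of_injOn (fun pq => pq.1)
    · intro pq hpq
      simp only [T, Finset.coe_filter, Finset.mem_filter, Finset.mem_product,
        Set.mem_ofPred_eq] at hpq
      exact hpq.1.1.1
    · rintro ⟨⟨a, b⟩, ⟨a2, b2⟩⟩ h1 ⟨⟨a', b'⟩, ⟨a2', b2'⟩⟩ h2 h
      simp only [T, Finset.coe_filter, Finset.mem_filter, Finset.mem_product,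
        Set.mem_ofPred_eq] at h1 h2
      simp only [Prod.mk.injEq] at h ⊢
      obtain ⟨⟨_, e1⟩, e2⟩ := h1
      obtain ⟨⟨_, e3⟩, e4⟩ := h2
      obtain ⟨e5, e6⟩ := h
      subst e1 e2 e3 e4 e5 e6
      exact ⟨⟨rfl, rfl⟩, ⟨rfl, rfl⟩⟩
  have hT2 : (T.filter (fun pq => ¬ pq.1.2 = pq.2.2)).card ≤ N ^ 2 := by
    calc (T.filter (fun pq => ¬ pq.1.2 = pq.2.2)).card
        ≤ (Finset.univ : Finset (α × α)).card := by
          apply Finset.card_le_card_of_injOn (fun pq => (pq.1.2, pq.2.2))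
          · intro _ _; exact Finset.mem_coe.2 (Finset.mem_univ _)
          · rintro ⟨⟨a, b⟩, ⟨a2, b2⟩⟩ h1 ⟨⟨a', b'⟩, ⟨a2', b2'⟩⟩ h2 h
            simp only [T, Finset.coe_filter, Finset.mem_filter, Finset.mem_product,
              Set.mem_ofPred_eq] at h1 h2
            simp only [Prod.mk.injEq] at h ⊢
            obtain ⟨⟨⟨m1, m2⟩, e1⟩, n1⟩ := h1
            obtain ⟨⟨⟨m3, m4⟩, e3⟩, n2⟩ := h2
            obtain ⟨e5, e6⟩ := h
            subst e1 e3 e5 e6
            rcases hF a a' b b2 m1 m2 m3 m4 with h | h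
            · exact ⟨⟨h, rfl⟩, ⟨h, rfl⟩⟩
            · exact absurd h n1
      _ = N ^ 2 := by rw [Finset.card_univ, Fintype.card_prod, sq, hN]
  have hTle : T.card ≤ 2 * N ^ 2 := by
    have := Finset.card_filter_add_card_filter_not (s := T) (fun pq => pq.1.2 = pq.2.2)
    omega
  calc F.card ^ 2 = (∑ a, d a) ^ 2 := by rw [hsum]
    _ ≤ (Finset.univ : Finset α).card * ∑ a, d a ^ 2 := sq_sum_le_card_mul_sum_sq
    _ = N * T.card := by rw [hT, Finset.card_univ, hN]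
    _ ≤ N * (2 * N ^ 2) := Nat.mul_le_mul_left _ hTle
    _ = 2 * N ^ 3 := by ring

end Vale.Agent.Lib.P338.OW
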