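import Mathlib
import Vale.Agent.Lib.P338.OW.KST

/-!
# P338 / OW: a colouring of an N x N grid with rectangle-free classes needs many colours
-/

namespace Vale.Agent.Lib.P338.OW

lemma count_abstract {α κ : Type*} [Fintype α] [DecidableEq α] [DecidableEq κ] (K : Finset κ)
    (key : α × α → κ) (hK : ∀ p, key p ∈ K)
    (hC4 : ∀ a a' b b', key (a, b) = key (a, b') → key (a, b) = key (a', b) →
      key (a, b) = key (a', b') → a = a' ∨ b = b') :
    Fintype.card α ≤ 2 * K.card ^ 2 := by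
  classical
  obtain ⟨N, hN⟩ : ∃ N : ℕ, N = Fintype.card α := ⟨_, rfl⟩
  rw [← hN]
  let c : κ → ℕ := fun k => (Finset.univ.filter (fun p : α × α => key p = k)).card
  have hsum : N ^ 2 = ∑ k ∈ K, c k := by
    have := Finset.card_eq_sum_card_fiberwise (f := key) (s := (Finset.univ : Finset (α × α)))
      (t := K) (fun p _ => Finset.mem_coe.2 (hK p))
    rw [Finset.card_univ, Fintype.card_prod, ← hN] at this
    rw [sq]; exact this
  have hc : ∀ k ∈ K, c k ^ 2 ≤ 2 * N ^ 3 := by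
    intro k _
    rw [hN]
    apply c4_free_card
    intro a a' b b' h1 h2 h3 h4
    simp only [Finset.mem_filter, Finset.mem_univ, true_and] at h1 h2 h3 h4
    exact hC4 a a' b b' (h1.trans h2.symm) (h1.trans h3.symm) (h1.trans h4.symm)
  have hcs : (∑ k ∈ K, c k) ^ 2 ≤ K.card * ∑ k ∈ K, c k ^ 2 := sq_sum_le_card_mul_sum_sq
  have hs2 : ∑ k ∈ K, c k ^ 2 ≤ K.card * (2 * N ^ 3) := by
    calc ∑ k ∈ K, c k ^ 2 ≤ ∑ _k ∈ K, 2 * N ^ 3 := Finset.sum_le_sum hc
      _ = K.card * (2 * N ^ 3) := by rw [Finset.sum_const, smul_eq_mul]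
  have h4 : (N ^ 2) ^ 2 ≤ K.card * (K.card * (2 * N ^ 3)) := by
    calc (N ^ 2) ^ 2 = (∑ k ∈ K, c k) ^ 2 := by rw [hsum]
      _ ≤ K.card * ∑ k ∈ K, c k ^ 2 := hcs
      _ ≤ K.card * (K.card * (2 * N ^ 3)) := Nat.mul_le_mul_left _ hs2
  rcases Nat.eq_zero_or_pos N with h0 | hpos
  · rw [h0]; exact Nat.zero_le _
  · have h5 : N * N ^ 3 ≤ (2 * K.card ^ 2) * N ^ 3 := by
      calc N * N ^ 3 = (N ^ 2) ^ 2 := by ring
        _ ≤ K.card * (K.card * (2 * N ^ 3)) := h4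
        _ = (2 * K.card ^ 2) * N ^ 3 := by ring
    exact Nat.le_of_mul_le_mul_right h5 (pow_pos hpos 3)

end Vale.Agent.Lib.P338.OW
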