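import Mathlib

/-!
# P338 / OW: encoding short lists as functions on a finite type
-/

namespace Vale.Agent.Lib.P338.OW

/-- A list of length at most `ℓ` of pairs with second components at most `T`, as a function. -/
def enc {Q : Type} (T ℓ : ℕ) (l : List (Q × ℕ)) : Fin ℓ → Option (Q × Fin (T + 1)) :=
  fun i => (l[(i : ℕ)]?).map fun e => (e.1, ⟨min e.2 T, Nat.lt_succ_of_le (Nat.min_le_right _ _)⟩)

lemma enc_inj {Q : Type} {T ℓ : ℕ} {l l' : List (Q × ℕ)} (hl : l.length ≤ ℓ) (hl' : l'.length ≤ ℓ)
    (hT : ∀ e ∈ l, e.2 ≤ T) (hT' : ∀ e ∈ l', e.2 ≤ T) (h : enc T ℓ l = enc T ℓ l') : l = l' := by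
  apply List.ext_getElem?
  intro i
  by_cases hi : i < ℓ
  · have h1 := congrFun h ⟨i, hi⟩
    simp only [enc] at h1
    rcases hx : l[i]? with _ | x
    · rcases hy : l'[i]? with _ | y
      · rfl
      · rw [hx, hy] at h1
        simp at h1
    · rcases hy : l'[i]? with _ | y
      · rw [hx, hy] at h1
        simp at h1
      · rw [hx, hy] at h1
        simp only [Option.map_some, Option.some.injEq, Prod.mk.injEq, Fin.mk.injEq] at h1
        have hxT := hT x (List.mem_of_getElem? hx)
        have hyT := hT' y (List.mem_of_getElem? hy)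
        rw [Nat.min_eq_left hxT, Nat.min_eq_left hyT] at h1
        rw [Prod.ext h1.1 h1.2]
  · have h1 : l[i]? = none := List.getElem?_eq_none (by omega)
    have h2 : l'[i]? = none := List.getElem?_eq_none (by omega)
    rw [h1, h2]

end Vale.Agent.Lib.P338.OW
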