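import Mathlib
import Vale.Agent.Lib.P338.OW.Basic

/-!
# P338 / OW: each side of a boundary in the middle zone sees only one of the two factors
-/

namespace Vale.Agent.Lib.P338.OW

open Vale.Agent.Lib.P338

variable {M : Machine 2}

lemma inputCell_xOf_indep {n m j : ℕ} (hj : m ≤ j) (a a' : Fin m → Bool) (y : Fin n → Bool) :
    inputCell (xOf n m a) y j = inputCell (xOf n m a') y j := by
  unfold inputCell
  by_cases h : j < n
  · rw [dif_pos h, dif_pos h]
    unfold xOf
    rw [dif_neg (by simpa using hj), dif_neg (by simpa using hj)]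
  · rw [dif_neg h, dif_neg h]

lemma inputCell_yOf_indep {n m j : ℕ} (hm : m ≤ n) (hj : j < 2 * n - m + 1) (x : Fin n → Bool)
    (b b' : Fin m → Bool) :
    inputCell x (yOf n m b) j = inputCell x (yOf n m b') j := by
  unfold inputCell
  by_cases h : j < n
  · rw [dif_pos h, dif_pos h]
  · rw [dif_neg h, dif_neg h]
    by_cases h1 : j = n
    · rw [if_pos h1, if_pos h1]
    · rw [if_neg h1, if_neg h1]
      by_cases h2 : j - (n + 1) < n
      · rw [dif_pos h2, dif_pos h2]
        unfold yOf
        have h3 : ¬ (n - m ≤ j - (n + 1) ∧ j - (n + 1) - (n - m) < m) := by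
          intro h4
          omega
        rw [dif_neg h3, dif_neg h3]
      · rw [dif_neg h2, dif_neg h2]

lemma sview_R_indep {n m β : ℕ} (hm : m ≤ n) (hβ : m ≤ β) (a a' b : Fin m → Bool)
    (ω : ℕ → M.Γ) :
    sview M (fun j => β ≤ j) (ini M n m a b) ω = sview M (fun j => β ≤ j) (ini M n m a' b) ω := by
  unfold sview
  refine Prod.ext rfl (Prod.ext ?_ rfl)
  funext j
  show mask M (fun j => β ≤ j) ((ini M n m a b).tape 0) j
    = mask M (fun j => β ≤ j) ((ini M n m a' b).tape 0) j
  unfold mask
  by_cases hj : β ≤ j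
  · rw [if_pos hj, if_pos hj]
    unfold ini init
    show (if (0 : Fin 2) = M.inp then M.sym (inputCell (xOf n m a) (yOf n m b) j)
        else M.sym Sym.blank)
      = (if (0 : Fin 2) = M.inp then M.sym (inputCell (xOf n m a') (yOf n m b) j)
        else M.sym Sym.blank)
    rw [inputCell_xOf_indep (hβ.trans hj) a a']
  · rw [if_neg hj, if_neg hj]

lemma sview_L_indep {n m β : ℕ} (hm : m ≤ n) (hβ : β ≤ 2 * n - m + 1) (a b b' : Fin m → Bool)
    (ω : ℕ → M.Γ) :
    sview M (fun j => ¬ β ≤ j) (ini M n m a b) ω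
      = sview M (fun j => ¬ β ≤ j) (ini M n m a b') ω := by
  unfold sview
  refine Prod.ext rfl (Prod.ext ?_ rfl)
  funext j
  show mask M (fun j => ¬ β ≤ j) ((ini M n m a b).tape 0) j
    = mask M (fun j => ¬ β ≤ j) ((ini M n m a b').tape 0) j
  unfold mask
  by_cases hj : ¬ β ≤ j
  · rw [if_pos hj, if_pos hj]
    unfold ini init
    show (if (0 : Fin 2) = M.inp then M.sym (inputCell (xOf n m a) (yOf n m b) j)
        else M.sym Sym.blank)
      = (if (0 : Fin 2) = M.inp then M.sym (inputCell (xOf n m a) (yOf n m b') j)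
        else M.sym Sym.blank)
    rw [inputCell_yOf_indep hm (by omega) (xOf n m a) b b']
  · rw [if_neg hj, if_neg hj]

end Vale.Agent.Lib.P338.OW
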