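import Mathlib
import Vale.Agent.Lib.P338.OW.Basic

/-!
# P338 / OW: the output tape is blank from its head on; its head moves monotonically
-/

namespace Vale.Agent.Lib.P338.OW

open Vale.Agent.Lib.P338

variable {M : Machine 2}

lemma read_eq {c : Cfg M} (hf : Fresh M c) :
    (fun i => c.tape i (c.head i)) = rd M (c.tape 0 (c.head 0)) := by
  funext i
  fin_cases i
  · simp [rd]
  · simpa [rd] using hf (c.head 1) le_rfl

lemma fresh_init (hOW : OneWayOut M) {n : ℕ} (x y : Fin n → Bool) : Fresh M (init M x y) := by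
  intro p _
  simp [init, hOW.1]

lemma step_spec {c c' : Cfg M} (h : step M c = some c') :
    ∃ r, M.δ c.q (fun i => c.tape i (c.head i)) = some r ∧
      c'.head 1 = (r.2 1).2.apply (c.head 1) ∧
      c'.tape 1 = Function.update (c.tape 1) (c.head 1) (r.2 1).1 := by
  unfold step at h
  obtain ⟨r, hr, rfl⟩ := Option.map_eq_some_iff.1 h
  exact ⟨r, hr, rfl, rfl⟩

lemma fresh_step (hOW : OneWayOut M) {c c' : Cfg M} (hf : Fresh M c) (h : step M c = some c') :
    Fresh M c' := by
  obtain ⟨r, hr, hh, ht⟩ := step_spec h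
  intro p hp
  rw [ht]
  rcases hOW.2.2 _ _ r hr with h1 | h1
  · rw [hh, h1] at hp
    simp only [Move.apply] at hp
    by_cases hpe : p = c.head 1
    · rw [hpe, Function.update_self, h1]
    · rw [Function.update_of_ne hpe]
      exact hf p hp
  · rw [hh, h1] at hp
    simp only [Move.apply] at hp
    have hpe : p ≠ c.head 1 := by omega
    rw [Function.update_of_ne hpe]
    exact hf p (by omega)

lemma fresh_run (hOW : OneWayOut M) : ∀ (t : ℕ) (c c' : Cfg M), Fresh M c → run M t c = some c' →
    Fresh M c' := by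
  intro t
  induction t with
  | zero =>
    intro c c' hf h
    simp only [run, Option.some.injEq] at h
    rw [← h]
    exact hf
  | succ t ih =>
    intro c c' hf h
    simp only [run] at h
    obtain ⟨c1, hc1, h2⟩ := Option.bind_eq_some_iff.1 h
    exact ih c1 c' (fresh_step hOW hf hc1) h2

lemma head1_step (hOW : OneWayOut M) {c c' : Cfg M} (h : step M c = some c') :
    c.head 1 ≤ c'.head 1 ∧ c'.head 1 ≤ c.head 1 + 1 := by
  obtain ⟨r, hr, hh, _⟩ := step_spec h
  rcases hOW.2.2 _ _ r hr with h1 | h1
  · rw [hh, h1]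
    simp [Move.apply]
  · rw [hh, h1]
    simp [Move.apply]

lemma head1_run (hOW : OneWayOut M) : ∀ (t : ℕ) (c c' : Cfg M), run M t c = some c' →
    c.head 1 ≤ c'.head 1 ∧ c'.head 1 ≤ c.head 1 + t := by
  intro t
  induction t with
  | zero =>
    intro c c' h
    simp only [run, Option.some.injEq] at h
    rw [← h]
    simp
  | succ t ih =>
    intro c c' h
    simp only [run] at h
    obtain ⟨c1, hc1, h2⟩ := Option.bind_eq_some_iff.1 h
    have h3 := head1_step hOW hc1
    have h4 := ih c1 c' h2
    omega

/-- The output has `2n` non-blank symbols, each of which costs a step. -/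
lemma time_ge (hOW : OneWayOut M) {n : ℕ} (hM : MultAt M n) (hn : 1 ≤ n) :
    2 * n ≤ worstTime M n := by
  obtain ⟨t, c, hH, hout⟩ := hM (fun _ => false) (fun _ => false)
  have hf : Fresh M c := fresh_run hOW t _ c (fresh_init hOW _ _) hH.1
  have hhead := (head1_run hOW t _ c hH.1).2
  have h0 : (init M (fun _ : Fin n => false) (fun _ : Fin n => false)).head 1 = 0 := rfl
  rw [h0, zero_add] at hhead
  have hge : 2 * n ≤ c.head 1 := by
    by_contra hlt
    have h1 := hout (2 * n - 1) (by omega)
    rw [hOW.2.1, hf (2 * n - 1) (by omega)] at h1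
    have h2 := M.sym_inj h1
    cases hb : binDigit (2 * n) (val (fun _ : Fin n => false) * val (fun _ : Fin n => false))
      (2 * n - 1) <;> rw [hb] at h2 <;> simp [bitSym] at h2
  calc 2 * n ≤ t := hge.trans hhead
    _ = haltTime M (fun _ : Fin n => false) (fun _ : Fin n => false) := (haltTime_eq M hH).symm
    _ ≤ worstTime M n := haltTime_le_worstTime M _ _

end Vale.Agent.Lib.P338.OW
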