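import Mathlib
import Vale.Agent.Lib.P338.OW.Fresh

/-!
# P338 / OW: the output tape is the superposition of what the two sides wrote
-/

namespace Vale.Agent.Lib.P338.OW

open Vale.Agent.Lib.P338

variable {M : Machine 2}

lemma merge_spec (hOW : OneWayOut M) (S : ℕ → Prop) [DecidablePred S] :
    ∀ (t : ℕ) (c c' : Cfg M) (ωR ωL : ℕ → M.Γ), Fresh M c → run M t c = some c' →
      Merged M (c.tape 1) ωR ωL →
      (∀ p, c.head 1 ≤ p → ωR p = M.sym Sym.blank ∧ ωL p = M.sym Sym.blank) →
      Merged M (c'.tape 1) (swrote M S t c ωR) (swrote M (fun j => ¬ S j) t c ωL) := by
  intro t
  induction t with
  | zero =>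
    intro c c' ωR ωL _ hrun hm _
    simp only [run, Option.some.injEq] at hrun
    subst hrun
    simpa [swrote] using hm
  | succ t ih =>
    intro c c' ωR ωL hf hrun hm hb
    simp only [run] at hrun
    cases hstep : step M c with
    | none =>
      rw [hstep] at hrun
      simp at hrun
    | some c1 =>
      rw [hstep] at hrun
      have hrun1 : run M t c1 = some c' := by simpa using hrun
      have hf1 := fresh_step hOW hf hstep
      have e1 : swrote M S (t + 1) c ωR = swrote M S t c1
          (if S (c.head 0) then Function.update ωR (c.head 1) (c1.tape 1 (c.head 1)) else ωR) := by
        simp only [swrote, hstep]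
      have e2 : swrote M (fun j => ¬ S j) (t + 1) c ωL = swrote M (fun j => ¬ S j) t c1
          (if ¬ S (c.head 0) then Function.update ωL (c.head 1) (c1.tape 1 (c.head 1))
            else ωL) := by
        simp only [swrote, hstep]
      rw [e1, e2]
      unfold step at hstep
      obtain ⟨r, hr, hc1⟩ := Option.map_eq_some_iff.1 hstep
      have htape : c1.tape 1 = Function.update (c.tape 1) (c.head 1) (r.2 1).1 := by
        rw [← hc1]
      have hhead : c1.head 1 = (r.2 1).2.apply (c.head 1) := by
        rw [← hc1]
      have hw : c1.tape 1 (c.head 1) = (r.2 1).1 := by
        rw [htape, Function.update_self]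
      have hb0 := hb (c.head 1) le_rfl
      apply ih c1 c' _ _ hf1 hrun1
      · -- merged
        intro p
        by_cases hp : p = c.head 1
        · subst hp
          by_cases hS : S (c.head 0)
          · simp only [hS, if_true, not_true_eq_false, if_false, Function.update_self, hw]
            refine ⟨Or.inr hb0.2, fun h => ?_, fun _ => trivial⟩
            rw [h, hb0.2]
          · simp only [hS, if_false, not_false_eq_true, if_true, Function.update_self, hw]
            exact ⟨Or.inl hb0.1, fun _ => trivial, fun h => absurd hb0.1 h⟩
        · have h1 : c1.tape 1 p = c.tape 1 p := by
            rw [htape, Function.update_of_ne hp]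
          have h2 : (if S (c.head 0) then
              Function.update ωR (c.head 1) (c1.tape 1 (c.head 1)) else ωR) p = ωR p := by
            split_ifs
            · rw [Function.update_of_ne hp]
            · rfl
          have h3 : (if ¬ S (c.head 0) then
              Function.update ωL (c.head 1) (c1.tape 1 (c.head 1)) else ωL) p = ωL p := by
            split_ifs
            · rfl
            · rw [Function.update_of_ne hp]
          rw [h1, h2, h3]
          exact hm p
      · -- blank from the head on
        intro p hp
        rcases hOW.2.2 _ _ r hr with hA | hB
        · -- nothing written
          have hwb : (r.2 1).1 = M.sym Sym.blank := by rw [hA]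
          have hmv : (r.2 1).2 = Move.stay := by rw [hA]
          rw [hhead, hmv] at hp
          have hp' : c.head 1 ≤ p := hp
          have hbp := hb p hp'
          constructor
          · split_ifs
            · by_cases hpp : p = c.head 1
              · subst hpp
                rw [Function.update_self, hw, hwb]
              · rw [Function.update_of_ne hpp]; exact hbp.1
            · exact hbp.1
          · split_ifs
            · exact hbp.2
            · by_cases hpp : p = c.head 1
              · subst hpp
                rw [Function.update_self, hw, hwb]
              · rw [Function.update_of_ne hpp]; exact hbp.2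
        · rw [hhead, hB] at hp
          have hp' : c.head 1 + 1 ≤ p := hp
          have hpp : p ≠ c.head 1 := by omega
          have hbp := hb p (by omega)
          constructor
          · split_ifs
            · rw [Function.update_of_ne hpp]; exact hbp.1
            · exact hbp.1
          · split_ifs
            · exact hbp.2
            · rw [Function.update_of_ne hpp]; exact hbp.2

end Vale.Agent.Lib.P338.OW
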