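import Mathlib
import Vale.Agent.Lib.P338.OW.Basic

/-!
# P338 / OW: the number on a superposed tape is the sum of the two numbers
-/

namespace Vale.Agent.Lib.P338.OW

open Vale.Agent.Lib.P338

variable {M : Machine 2}

lemma eq_sum_testBit {K z : ℕ} (hz : z < 2 ^ K) :
    z = ∑ p ∈ Finset.range K, if z.testBit (K - 1 - p) = true then 2 ^ (K - 1 - p) else 0 := by
  have h1 := Nat.ofBits_testBit z K
  rw [Nat.mod_eq_of_lt hz, ofBits_eq_sum] at h1
  rw [Fin.sum_univ_eq_sum_range (fun i => (z.testBit i).toNat * 2 ^ i) K] at h1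
  rw [← Finset.sum_range_reflect] at h1
  conv_lhs => rw [← h1]
  apply Finset.sum_congr rfl
  intro p _
  cases z.testBit (K - 1 - p) <;> simp

lemma num_merge {n z : ℕ} (hz : z < 2 ^ (2 * n)) {tp ωR ωL : ℕ → M.Γ} (hm : Merged M tp ωR ωL)
    (htp : ∀ i, i < 2 * n → tp i = M.sym (bitSym (binDigit (2 * n) z i))) :
    z = num M n ωR + num M n ωL := by
  classical
  have hblank : M.sym Sym.blank ≠ M.sym Sym.one := fun h => by
    have := M.sym_inj h
    cases this
  have hone : ∀ b : Bool, (M.sym (bitSym b) = M.sym Sym.one) ↔ b = true := by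
    intro b
    cases b
    · constructor
      · intro h
        have := M.sym_inj h
        simp [bitSym] at this
      · intro h
        cases h
    · simp [bitSym]
  unfold num
  rw [← Finset.sum_add_distrib]
  conv_lhs => rw [eq_sum_testBit hz]
  apply Finset.sum_congr rfl
  intro p hp
  have hp' := Finset.mem_range.1 hp
  have ht := htp p hp'
  unfold binDigit at ht
  obtain ⟨hor, h1, h2⟩ := hm p
  have key : (tp p = M.sym Sym.one) ↔ z.testBit (2 * n - 1 - p) = true := by
    rw [ht]
    exact hone _
  by_cases hR : ωR p = M.sym Sym.blank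
  · have hRo : ωR p ≠ M.sym Sym.one := by
      rw [hR]
      exact hblank
    rw [if_neg hRo, zero_add, ← h1 hR]
    by_cases hb : z.testBit (2 * n - 1 - p) = true
    · rw [if_pos hb, if_pos (key.2 hb)]
    · rw [if_neg hb, if_neg (fun h => hb (key.1 h))]
  · have hL : ωL p = M.sym Sym.blank := hor.resolve_left hR
    have hLo : ωL p ≠ M.sym Sym.one := by
      rw [hL]
      exact hblank
    rw [if_neg hLo, add_zero, ← h2 hR]
    by_cases hb : z.testBit (2 * n - 1 - p) = true
    · rw [if_pos hb, if_pos (key.2 hb)]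
    · rw [if_neg hb, if_neg (fun h => hb (key.1 h))]

end Vale.Agent.Lib.P338.OW
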