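import Mathlib
import Vale.Agent.Lib.P338.OW.Fresh

/-!
# P338 / OW: one step of the machine seen from one side
-/

namespace Vale.Agent.Lib.P338.OW

open Vale.Agent.Lib.P338

variable {M : Machine 2}

lemma mask_apply_of (S : ℕ → Prop) [DecidablePred S] (τ : ℕ → M.Γ) {j : ℕ} (hj : S j) :
    mask M S τ j = τ j := by
  simp [mask, hj]

lemma mask_update_of (S : ℕ → Prop) [DecidablePred S] (τ : ℕ → M.Γ) {j : ℕ} (hj : S j)
    (a : M.Γ) : mask M S (Function.update τ j a) = Function.update (mask M S τ) j a := by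
  funext i
  by_cases hij : i = j
  · subst hij
    simp [mask, hj]
  · simp [mask, Function.update_of_ne hij]

lemma mask_update_of_not (S : ℕ → Prop) [DecidablePred S] (τ : ℕ → M.Γ) {j : ℕ} (hj : ¬ S j)
    (a : M.Γ) : mask M S (Function.update τ j a) = mask M S τ := by
  funext i
  by_cases hij : i = j
  · subst hij
    simp [mask, hj]
  · simp [mask, Function.update_of_ne hij]

lemma sstep_none (S : ℕ → Prop) [DecidablePred S] {c : Cfg M} (hf : Fresh M c)
    (hS : S (c.head 0)) (h : step M c = none) (ω : ℕ → M.Γ) :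
    sstep M S c.q (c.head 0) (c.head 1) (mask M S (c.tape 0)) ω = none := by
  unfold step at h
  rw [read_eq hf] at h
  unfold sstep
  rw [mask_apply_of S _ hS]
  rw [Option.map_eq_none_iff] at h ⊢
  exact h

lemma sstep_some (S : ℕ → Prop) [DecidablePred S] {c c' : Cfg M} (hf : Fresh M c)
    (hS : S (c.head 0)) (h : step M c = some c') (ω : ℕ → M.Γ) :
    sstep M S c.q (c.head 0) (c.head 1) (mask M S (c.tape 0)) ω
      = some (sview M S c' (Function.update ω (c.head 1) (c'.tape 1 (c.head 1)))) := by
  unfold step at h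
  rw [read_eq hf] at h
  unfold sstep
  rw [mask_apply_of S _ hS]
  rw [Option.map_eq_some_iff] at h
  obtain ⟨r, hr, rfl⟩ := h
  rw [hr]
  simp only [Option.map_some, sview, Function.update_self]
  rw [mask_update_of S _ hS]

lemma outside_step (S : ℕ → Prop) [DecidablePred S] {c c' : Cfg M} (hS : ¬ S (c.head 0))
    (h : step M c = some c') : mask M S (c'.tape 0) = mask M S (c.tape 0) := by
  unfold step at h
  rw [Option.map_eq_some_iff] at h
  obtain ⟨r, hr, rfl⟩ := h
  exact mask_update_of_not S _ hS _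

lemma head0_step {c c' : Cfg M} (h : step M c = some c') :
    ∃ mv : Move, c'.head 0 = mv.apply (c.head 0) := by
  unfold step at h
  rw [Option.map_eq_some_iff] at h
  obtain ⟨r, hr, rfl⟩ := h
  exact ⟨(r.2 0).2, rfl⟩

end Vale.Agent.Lib.P338.OW
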