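import Mathlib
import Vale.Agent.Lib.P338.OW.Basic

/-!
# P338 / OW: values of the padded strings
-/

namespace Vale.Agent.Lib.P338.OW

open Vale.Agent.Lib.P338

lemma val_xOf {n m : ℕ} (hm : m ≤ n) (a : Fin m → Bool) :
    val (xOf n m a) = val a * 2 ^ (n - m) := by
  obtain ⟨d, rfl⟩ := Nat.exists_eq_add_of_le hm
  unfold val
  rw [Fin.sum_univ_add, Finset.sum_mul]
  have h2 : ∑ i : Fin d, (xOf (m + d) m a (Fin.natAdd m i)).toNat *
      2 ^ (m + d - 1 - ((Fin.natAdd m i : Fin (m + d)) : ℕ)) = 0 := by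
    apply Finset.sum_eq_zero
    intro i _
    have : xOf (m + d) m a (Fin.natAdd m i) = false := by
      unfold xOf
      rw [dif_neg]
      simp
    rw [this]
    simp
  rw [h2, add_zero]
  apply Finset.sum_congr rfl
  intro i _
  have h1 : xOf (m + d) m a (Fin.castAdd d i) = a i := by
    unfold xOf
    rw [dif_pos (by simp)]
    rfl
  rw [h1, mul_assoc, ← pow_add]
  congr 2
  have := i.2
  simp only [Fin.val_castAdd]
  omega

lemma val_yOf {n m : ℕ} (hm : m ≤ n) (b : Fin m → Bool) : val (yOf n m b) = val b := by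
  obtain ⟨d, rfl⟩ : ∃ d, n = d + m := ⟨n - m, by omega⟩
  unfold val
  rw [Fin.sum_univ_add]
  have h2 : ∑ i : Fin d, (yOf (d + m) m b (Fin.castAdd m i)).toNat *
      2 ^ (d + m - 1 - ((Fin.castAdd m i : Fin (d + m)) : ℕ)) = 0 := by
    apply Finset.sum_eq_zero
    intro i _
    have : yOf (d + m) m b (Fin.castAdd m i) = false := by
      unfold yOf
      rw [dif_neg]
      have := i.2
      simp only [Fin.val_castAdd]
      omega
    rw [this]
    simp
  rw [h2, zero_add]
  apply Finset.sum_congr rfl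
  intro i _
  have h1 : yOf (d + m) m b (Fin.natAdd d i) = b i := by
    unfold yOf
    have hi := i.2
    rw [dif_pos (by simp only [Fin.val_natAdd]; omega)]
    congr 1
    apply Fin.ext
    simp only [Fin.val_natAdd]
    omega
  rw [h1]
  congr 2
  have := i.2
  simp only [Fin.val_natAdd]
  omega

lemma val_lt {m : ℕ} (a : Fin m → Bool) : val a < 2 ^ m := by
  rw [val_eq_ofBits]
  exact Nat.ofBits_lt_two_pow _

lemma val_inj {m : ℕ} : Function.Injective (val : (Fin m → Bool) → ℕ) := by
  intro x y h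
  funext j
  rw [← testBit_val x j, ← testBit_val y j, h]

end Vale.Agent.Lib.P338.OW
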