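import Mathlib
import Vale.Agent.Lib.P338.OW.SimSpec
import Vale.Agent.Lib.P338.OW.Merge
import Vale.Agent.Lib.P338.OW.Num
import Vale.Agent.Lib.P338.OW.Vals
import Vale.Agent.Lib.P338.OW.Inputs

/-!
# P338 / OW: the product splits as (function of a and the crossing records) +
(function of b and the crossing records)
-/

namespace Vale.Agent.Lib.P338.OW

open Vale.Agent.Lib.P338

variable {M : Machine 2}

lemma move_apply_le (mv : Move) (h : ℕ) : mv.apply h ≤ h + 1 ∧ h - 1 ≤ mv.apply h := by
  cases mv <;> simp only [Move.apply] <;> omega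

lemma decomp (hOW : OneWayOut M) {n m : ℕ} (hM : MultAt M n) (hm : m ≤ n) :
    ∃ (Rf Lf : ℕ → (Fin m → Bool) → List (M.Q × ℕ) → ℕ),
      ∀ β, m + 1 ≤ β → β ≤ 2 * n - m + 1 → ∀ a b : Fin m → Bool,
        val a * 2 ^ (n - m) * val b = Lf β a (EL M n m β a b) + Rf β b (ER M n m β a b) := by
  refine ⟨fun β b l => num M n (srun M (fun j => β ≤ j) β (worstTime M n) l
      (sview M (fun j => β ≤ j) (ini M n m (fun _ => false) b) (blankOut M))).2.2,
    fun β a l => num M n (srun M (fun j => ¬ β ≤ j) (β - 1) (worstTime M n) l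
      (sview M (fun j => ¬ β ≤ j) (ini M n m a (fun _ => false)) (blankOut M))).2.2, ?_⟩
  intro β h1 h2 a b
  obtain ⟨t, c', hH, hout⟩ := hM (xOf n m a) (yOf n m b)
  have htim : tim M n m a b = t := haltTime_eq M hH
  have htT : t ≤ worstTime M n := htim ▸ haltTime_le_worstTime M (xOf n m a) (yOf n m b)
  have hfr : Fresh M (ini M n m a b) := fresh_init hOW _ _
  have hrun : run M t (ini M n m a b) = some c' := hH.1
  have hR := srun_spec hOW (fun j => β ≤ j) β
    (by
      intro h mv hh1 hh2
      have := move_apply_le mv h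
      omega)
    t (ini M n m a b) c' (blankOut M) hfr hrun hH.2 (worstTime M n) htT
  have hL := srun_spec hOW (fun j => ¬ β ≤ j) (β - 1)
    (by
      intro h mv hh1 hh2
      have := move_apply_le mv h
      omega)
    t (ini M n m a b) c' (blankOut M) hfr hrun hH.2 (worstTime M n) htT
  have hmerge := merge_spec hOW (fun j => β ≤ j) t (ini M n m a b) c' (blankOut M) (blankOut M)
    hfr hrun
    (by
      intro p
      have h0 : (ini M n m a b).tape 1 p = M.sym Sym.blank := hfr p (Nat.zero_le _)
      simp [blankOut, h0])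
    (by
      intro p _
      simp [blankOut])
  have hz : val (xOf n m a) * val (yOf n m b) < 2 ^ (2 * n) := by
    have hx := val_lt (xOf n m a)
    have hy := val_lt (yOf n m b)
    calc val (xOf n m a) * val (yOf n m b) < 2 ^ n * 2 ^ n :=
          Nat.mul_lt_mul'' hx hy
      _ = 2 ^ (2 * n) := by rw [← pow_add]; congr 1; omega
  have hout' : ∀ i, i < 2 * n → c'.tape 1 i
      = M.sym (bitSym (binDigit (2 * n) (val (xOf n m a) * val (yOf n m b)) i)) := by
    intro i hi
    have := hout i hi
    rwa [hOW.2.1] at this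
  have hnum := num_merge hz hmerge hout'
  rw [val_xOf hm, val_yOf hm] at hnum
  rw [hnum, add_comm]
  simp only [ER, EL, htim]
  rw [sview_R_indep hm (by omega) (fun _ => false) a b, hR,
    sview_L_indep hm h2 a (fun _ => false) b, hL]
  simp only [sview]

end Vale.Agent.Lib.P338.OW
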