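import Mathlib
import Vale.Agent.Lib.P338.OW.Decomp

/-!
# P338 / OW: inputs with the same crossing records contain no rectangle
-/

namespace Vale.Agent.Lib.P338.OW

open Vale.Agent.Lib.P338

variable {M : Machine 2}

lemma no_c4 (hOW : OneWayOut M) {n m : ℕ} (hM : MultAt M n) (hm : m ≤ n) {β : ℕ}
    (h1 : m + 1 ≤ β) (h2 : β ≤ 2 * n - m + 1) {a a' b b' : Fin m → Bool}
    {r l : List (M.Q × ℕ)}
    (h11 : ER M n m β a b = r ∧ EL M n m β a b = l)
    (h12 : ER M n m β a b' = r ∧ EL M n m β a b' = l)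
    (h21 : ER M n m β a' b = r ∧ EL M n m β a' b = l)
    (h22 : ER M n m β a' b' = r ∧ EL M n m β a' b' = l) : a = a' ∨ b = b' := by
  obtain ⟨Rf, Lf, hd⟩ := decomp hOW hM hm
  have e11 := hd β h1 h2 a b
  have e12 := hd β h1 h2 a b'
  have e21 := hd β h1 h2 a' b
  have e22 := hd β h1 h2 a' b'
  rw [h11.1, h11.2] at e11
  rw [h12.1, h12.2] at e12
  rw [h21.1, h21.2] at e21
  rw [h22.1, h22.2] at e22
  have hP : (0 : ℤ) < ((2 ^ (n - m) : ℕ) : ℤ) := by positivity
  have hsum : val a * 2 ^ (n - m) * val b + val a' * 2 ^ (n - m) * val b'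
      = val a * 2 ^ (n - m) * val b' + val a' * 2 ^ (n - m) * val b := by
    rw [e11, e12, e21, e22]
    ring
  have hz : ((val a : ℤ) - (val a' : ℤ)) * ((val b : ℤ) - (val b' : ℤ)) = 0 := by
    have hsum' : (val a : ℤ) * ((2 ^ (n - m) : ℕ) : ℤ) * (val b : ℤ)
        + (val a' : ℤ) * ((2 ^ (n - m) : ℕ) : ℤ) * (val b' : ℤ)
        = (val a : ℤ) * ((2 ^ (n - m) : ℕ) : ℤ) * (val b' : ℤ)
          + (val a' : ℤ) * ((2 ^ (n - m) : ℕ) : ℤ) * (val b : ℤ) := by
      exact_mod_cast hsum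
    have : ((2 ^ (n - m) : ℕ) : ℤ) * (((val a : ℤ) - (val a' : ℤ)) * ((val b : ℤ) - (val b' : ℤ)))
        = 0 := by
      linear_combination hsum'
    rcases mul_eq_zero.mp this with h | h
    · exact absurd h hP.ne'
    · exact h
  rcases mul_eq_zero.mp hz with h | h
  · left
    apply val_inj
    have : (val a : ℤ) = (val a' : ℤ) := by linarith
    exact_mod_cast this
  · right
    apply val_inj
    have : (val b : ℤ) = (val b' : ℤ) := by linarith
    exact_mod_cast this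

end Vale.Agent.Lib.P338.OW
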