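import Mathlib
import Vale.Agent.Lib.P338.OW.SimStep

/-!
# P338 / OW: counting crossings
-/

namespace Vale.Agent.Lib.P338.OW

open Vale.Agent.Lib.P338

variable {M : Machine 2}

/-- Each step crosses at most one boundary, in one direction. -/
lemma sum_cross_le (B : Finset ℕ) : ∀ (t : ℕ) (c : Cfg M),
    ∑ b ∈ B, ((senters M (fun j => b ≤ j) t c).length
      + (senters M (fun j => ¬ b ≤ j) t c).length) ≤ t := by
  intro t
  induction t with
  | zero => intro c; simp [senters]
  | succ t ih =>
    intro c
    cases hs : step M c with
    | none => simp [senters, hs]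
    | some c₁ =>
      simp only [senters, hs, List.length_append]
      obtain ⟨mv, hmv⟩ := head0_step hs
      have hle : c₁.head 0 ≤ c.head 0 + 1 ∧ c.head 0 ≤ c₁.head 0 + 1 := by
        rw [hmv]
        cases mv <;> simp only [Move.apply] <;> omega
      have h1 : ∑ b ∈ B,
          ((if ¬ b ≤ c.head 0 ∧ b ≤ c₁.head 0 then [(c₁.q, c₁.head 1)] else []).length
            + (if ¬ ¬ b ≤ c.head 0 ∧ ¬ b ≤ c₁.head 0 then [(c₁.q, c₁.head 1)] else []).length)
          ≤ 1 := by
        calc _ ≤ ∑ b ∈ B, (if b = max (c.head 0) (c₁.head 0) then 1 else 0) := by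
              apply Finset.sum_le_sum
              intro b _
              by_cases hA : ¬ b ≤ c.head 0 ∧ b ≤ c₁.head 0
              · have hB : ¬ (¬ ¬ b ≤ c.head 0 ∧ ¬ b ≤ c₁.head 0) := by omega
                have hb : b = max (c.head 0) (c₁.head 0) := by omega
                rw [if_pos hA, if_neg hB, if_pos hb]
                simp
              · by_cases hB : ¬ ¬ b ≤ c.head 0 ∧ ¬ b ≤ c₁.head 0
                · have hb : b = max (c.head 0) (c₁.head 0) := by omega
                  rw [if_neg hA, if_pos hB, if_pos hb]
                  simp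
                · rw [if_neg hA, if_neg hB]
                  simp
          _ ≤ 1 := by
              rw [Finset.sum_ite_eq']
              split_ifs <;> simp
      have h2 := ih c₁
      have h3 : ∑ b ∈ B,
          ((if ¬ b ≤ c.head 0 ∧ b ≤ c₁.head 0 then [(c₁.q, c₁.head 1)] else []).length
              + (senters M (fun j => b ≤ j) t c₁).length
            + ((if ¬ ¬ b ≤ c.head 0 ∧ ¬ b ≤ c₁.head 0 then [(c₁.q, c₁.head 1)] else []).length
              + (senters M (fun j => ¬ b ≤ j) t c₁).length))
          = ∑ b ∈ B,
            ((if ¬ b ≤ c.head 0 ∧ b ≤ c₁.head 0 then [(c₁.q, c₁.head 1)] else []).length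
            + (if ¬ ¬ b ≤ c.head 0 ∧ ¬ b ≤ c₁.head 0 then [(c₁.q, c₁.head 1)] else []).length)
          + ∑ b ∈ B, ((senters M (fun j => b ≤ j) t c₁).length
            + (senters M (fun j => ¬ b ≤ j) t c₁).length) := by
        rw [← Finset.sum_add_distrib]
        refine Finset.sum_congr rfl fun b _ => ?_
        omega
      rw [h3]
      omega

lemma senters_pos_le (hOW : OneWayOut M) (S : ℕ → Prop) [DecidablePred S] :
    ∀ (t : ℕ) (c : Cfg M), ∀ e ∈ senters M S t c, e.2 ≤ c.head 1 + t := by
  intro t
  induction t with
  | zero => intro c e he; simp [senters] at he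
  | succ t ih =>
    intro c e he
    cases hs : step M c with
    | none => simp [senters, hs] at he
    | some c₁ =>
      simp only [senters, hs, List.mem_append] at he
      have h1 := head1_step hOW hs
      rcases he with he | he
      · split_ifs at he with hc
        · simp only [List.mem_singleton] at he
          subst he
          simp only
          omega
        · simp at he
      · have := ih c₁ e he
        omega

end Vale.Agent.Lib.P338.OW
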