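import Mathlib
import Vale.Agent.Lib.P338.OW.Cross

/-!
# P338 / OW: some boundary in the middle zone is crossed rarely
-/

namespace Vale.Agent.Lib.P338.OW

open Vale.Agent.Lib.P338

variable {M : Machine 2}

lemma tim_le_worstTime (n m : ℕ) (a b : Fin m → Bool) : tim M n m a b ≤ worstTime M n :=
  haltTime_le_worstTime M (xOf n m a) (yOf n m b)

lemma exists_short {n m : ℕ} (hm : 2 * m ≤ n) (a b : Fin m → Bool) :
    ∃ β ∈ Finset.Icc (m + 1) (2 * n - m + 1),
      (ER M n m β a b).length + (EL M n m β a b).length ≤ worstTime M n / (n + 1) := by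
  by_contra hcon
  have hall : ∀ β ∈ Finset.Icc (m + 1) (2 * n - m + 1),
      worstTime M n / (n + 1) + 1 ≤
        (senters M (fun j => β ≤ j) (tim M n m a b) (ini M n m a b)).length
          + (senters M (fun j => ¬ β ≤ j) (tim M n m a b) (ini M n m a b)).length := by
    intro β hβ
    by_contra hlt
    apply hcon
    refine ⟨β, hβ, ?_⟩
    have hlt' := Nat.lt_of_not_le hlt
    exact Nat.le_of_lt_succ hlt'
  have hsum := sum_cross_le (M := M) (Finset.Icc (m + 1) (2 * n - m + 1))
    (tim M n m a b) (ini M n m a b)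
  have hlow := Finset.card_nsmul_le_sum (Finset.Icc (m + 1) (2 * n - m + 1))
    (fun β => (senters M (fun j => β ≤ j) (tim M n m a b) (ini M n m a b)).length
          + (senters M (fun j => ¬ β ≤ j) (tim M n m a b) (ini M n m a b)).length)
    (worstTime M n / (n + 1) + 1) hall
  have hcard : n + 1 ≤ (Finset.Icc (m + 1) (2 * n - m + 1)).card := by
    rw [Nat.card_Icc]
    omega
  have htw := tim_le_worstTime (M := M) n m a b
  have h1 : (n + 1) * (worstTime M n / (n + 1) + 1)
      ≤ (Finset.Icc (m + 1) (2 * n - m + 1)).card * (worstTime M n / (n + 1) + 1) :=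
    Nat.mul_le_mul_right _ hcard
  have h2 : worstTime M n < (n + 1) * (worstTime M n / (n + 1) + 1) := by
    have := Nat.lt_mul_div_succ (worstTime M n) (Nat.succ_pos n)
    simpa using this
  rw [smul_eq_mul] at hlow
  omega

lemma ER_pos_le (hOW : OneWayOut M) {n m β : ℕ} (a b : Fin m → Bool) :
    ∀ e ∈ ER M n m β a b, e.2 ≤ worstTime M n := by
  intro e he
  have h := senters_pos_le hOW (fun j => β ≤ j) (tim M n m a b) (ini M n m a b) e he
  have h0 : (ini M n m a b).head 1 = 0 := rfl
  have htw := tim_le_worstTime (M := M) n m a b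
  omega

lemma EL_pos_le (hOW : OneWayOut M) {n m β : ℕ} (a b : Fin m → Bool) :
    ∀ e ∈ EL M n m β a b, e.2 ≤ worstTime M n := by
  intro e he
  have h := senters_pos_le hOW (fun j => ¬ β ≤ j) (tim M n m a b) (ini M n m a b) e he
  have h0 : (ini M n m a b).head 1 = 0 := rfl
  have htw := tim_le_worstTime (M := M) n m a b
  omega

end Vale.Agent.Lib.P338.OW
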