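import Mathlib
import Vale.Agent.Lib.P338.OW.NoC4
import Vale.Agent.Lib.P338.OW.Short
import Vale.Agent.Lib.P338.OW.CountAbs
import Vale.Agent.Lib.P338.OW.Enc

/-!
# P338 / OW: the counting inequality
-/

namespace Vale.Agent.Lib.P338.OW

open Vale.Agent.Lib.P338

variable {M : Machine 2}

lemma count_main (hOW : OneWayOut M) {n m : ℕ} (hM : MultAt M n) (hn : 1 ≤ n)
    (hm : 2 * m ≤ n) :
    2 ^ m ≤ 2 * ((2 * n + 1) *
      ((Nat.card M.Q * (worstTime M n + 1) + 1) ^ (worstTime M n / (n + 1))) ^ 2) ^ 2 := by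
  classical
  have : Finite M.Q := M.finQ
  have : Fintype M.Q := Fintype.ofFinite M.Q
  set T := worstTime M n with hT
  set l := T / (n + 1) with hl
  choose β hβ1 hβ2 using fun (a b : Fin m → Bool) => exists_short (M := M) hm a b
  let key : (Fin m → Bool) × (Fin m → Bool) →
      ℕ × (Fin l → Option (M.Q × Fin (T + 1))) × (Fin l → Option (M.Q × Fin (T + 1))) :=
    fun p => (β p.1 p.2, enc T l (ER M n m (β p.1 p.2) p.1 p.2),
      enc T l (EL M n m (β p.1 p.2) p.1 p.2))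
  let K : Finset (ℕ × (Fin l → Option (M.Q × Fin (T + 1))) ×
      (Fin l → Option (M.Q × Fin (T + 1)))) :=
    Finset.Icc (m + 1) (2 * n - m + 1) ×ˢ (Finset.univ ×ˢ Finset.univ)
  have hK : ∀ p, key p ∈ K := by
    intro p
    simp only [K, key, Finset.mem_product, Finset.mem_univ, and_true]
    exact hβ1 p.1 p.2
  have hrec : ∀ a b a' b', key (a, b) = key (a', b') →
      β a' b' = β a b ∧ ER M n m (β a b) a' b' = ER M n m (β a b) a b ∧
        EL M n m (β a b) a' b' = EL M n m (β a b) a b := by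
    intro a b a' b' h
    simp only [key, Prod.mk.injEq] at h
    obtain ⟨h1, h2, h3⟩ := h
    rw [← h1] at h2 h3
    have e1 : (ER M n m (β a b) a b).length + (EL M n m (β a b) a b).length ≤ l := hβ2 a b
    have e2 : (ER M n m (β a' b') a' b').length + (EL M n m (β a' b') a' b').length ≤ l :=
      hβ2 a' b'
    rw [← h1] at e2
    refine ⟨h1.symm, ?_, ?_⟩
    · exact (enc_inj (by omega) (by omega) (ER_pos_le hOW a b) (ER_pos_le hOW a' b') h2).symm
    · exact (enc_inj (by omega) (by omega) (EL_pos_le hOW a b) (EL_pos_le hOW a' b') h3).symm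
  have hC4 : ∀ a a' b b', key (a, b) = key (a, b') → key (a, b) = key (a', b) →
      key (a, b) = key (a', b') → a = a' ∨ b = b' := by
    intro a a' b b' h1 h2 h3
    obtain ⟨_, r1, l1⟩ := hrec a b a b' h1
    obtain ⟨_, r2, l2⟩ := hrec a b a' b h2
    obtain ⟨_, r3, l3⟩ := hrec a b a' b' h3
    have hb := Finset.mem_Icc.1 (hβ1 a b)
    exact no_c4 hOW hM (by omega) hb.1 hb.2 ⟨rfl, rfl⟩ ⟨r1, l1⟩ ⟨r2, l2⟩ ⟨r3, l3⟩
  have h := count_abstract K key hK hC4
  have hcard : Fintype.card (Fin m → Bool) = 2 ^ m := by simp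
  have hcf : Fintype.card (Fin l → Option (M.Q × Fin (T + 1)))
      = (Nat.card M.Q * (T + 1) + 1) ^ l := by
    simp [Nat.card_eq_fintype_card]
  have hKc : K.card ≤ (2 * n + 1) * ((Nat.card M.Q * (T + 1) + 1) ^ l) ^ 2 := by
    simp only [K, Finset.card_product, Finset.card_univ, hcf, Nat.card_Icc]
    rw [← pow_two]
    exact Nat.mul_le_mul_right _ (by omega)
  rw [hcard] at h
  calc 2 ^ m ≤ 2 * K.card ^ 2 := h
    _ ≤ 2 * ((2 * n + 1) * ((Nat.card M.Q * (T + 1) + 1) ^ l) ^ 2) ^ 2 := by gcongr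

end Vale.Agent.Lib.P338.OW
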