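import Mathlib
import Vale.Agent.Lib.P338.OW.Count
import Vale.Agent.Lib.P338.OW.KeyArith
import Vale.Agent.Lib.P338.OW.Arith1
import Vale.Agent.Lib.P338.OW.Arith2

/-!
# P338 / OW: assembly
-/

namespace Vale.Agent.Lib.P338.OW

open Vale.Agent.Lib.P338

/-- The bound for one input length. -/
theorem final_at (M : Machine 2) (hOW : OneWayOut M) {n : ℕ} (hn : 1 ≤ n) (hM : MultAt M n) (Λ : ℕ)
    (hΛ : Nat.card M.Q * (worstTime M n + 1) + 1 ≤ 2 ^ Λ) :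
    (n - 1) * (n + 1) ≤ 14 * Λ * worstTime M n := by
  have hq : 1 ≤ Nat.card M.Q := by
    have := M.finQ
    have : Nonempty M.Q := ⟨M.start⟩
    exact Nat.succ_le_of_lt Nat.card_pos
  exact key_arith hn (time_ge hOW hM hn) hq hΛ (count_main hOW hM hn (by omega))

theorem final (M : Machine 2) (hOW : OneWayOut M) (hM : Multiplies M) :
    (∀ Λ n : ℕ, 1 ≤ n → Nat.card M.Q * (worstTime M n + 1) + 1 ≤ 2 ^ Λ →
      (n - 1) * (n + 1) ≤ 14 * Λ * worstTime M n) ∧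
    ∃ c : ℝ, 0 < c ∧ ∀ n : ℕ, 2 ≤ n →
      c * ((n : ℝ) ^ 2 / Real.log n) ≤ (worstTime M n : ℝ) ∧
      c * ((n : ℝ) * Real.log n) ≤ (worstTime M n : ℝ) := by
  have hq : 1 ≤ Nat.card M.Q := by
    have := M.finQ
    have : Nonempty M.Q := ⟨M.start⟩
    exact Nat.succ_le_of_lt Nat.card_pos
  have h1 : ∀ Λ n : ℕ, 1 ≤ n → Nat.card M.Q * (worstTime M n + 1) + 1 ≤ 2 ^ Λ →
      (n - 1) * (n + 1) ≤ 14 * Λ * worstTime M n := by
    intro Λ n hn hΛ
    exact final_at M hOW hn (fun x y => hM n hn x y) Λ hΛ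
  refine ⟨h1, ?_⟩
  obtain ⟨c, hc, h2⟩ := arith_sq_log (Nat.card M.Q) hq (worstTime M) h1
  refine ⟨c / 4, by positivity, fun n hn => ⟨?_, ?_⟩⟩
  · have h3 := h2 n hn
    have hlog : 0 < Real.log n := Real.log_pos (by exact_mod_cast hn)
    have h4 : 0 ≤ (n : ℝ) ^ 2 / Real.log n := by positivity
    nlinarith
  · have h3 := h2 n hn
    have h4 := nlogn_le n hn
    nlinarith
end Vale.Agent.Lib.P338.OW
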